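import Vale.Agent.P307.Bdl.B1

universe u

namespace Vale.Agent.Results.P307.Transfer

open FirstOrder Cardinal Vale.Agent.P307 Vale.Agent.P307.Gr

/-- Two categoricity transfers for arbitrary AECs, in ZFC, uniform in `LS(K) ≤ l`.
(1) From one categoricity cardinal `κ ≥ μ` with `κ ^ μ = κ` to all members of cofinality `ω` of a
closed unbounded class of cardinals depending only on `l`.
(2) The full conclusion of Q1 (categoricity in every `κ' ≥ μ`), from one categoricity cardinal
`κ ≥ μ`, if the vocabulary is relational and the Gaifman graph of the model of cardinality `κ`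
contains no subdivision of the complete graph on `κ` vertices. -/
theorem result :
    (∀ l : Cardinal.{u}, ∃ μ : Cardinal.{u}, l ≤ μ ∧ ∃ C : Set Cardinal.{u}, IsClub C ∧
      ∀ (L : Language.{u, u}) (K : AEC L), K.LS ≤ l →
        (∃ κ, μ ≤ κ ∧ κ ^ μ = κ ∧ K.CategoricalIn κ) →
        ∀ θ ∈ C, θ.ord.cof = ℵ₀ → K.CategoricalIn θ) ∧
    (∀ l : Cardinal.{u}, ℵ₀ ≤ l → ∃ μ : Cardinal.{u}, l ≤ μ ∧
      ∀ (L : Language.{u, u}) [L.IsRelational] (K : AEC L), K.LS ≤ l →
        ∀ κ : Cardinal.{u}, μ ≤ κ → K.CategoricalIn κ →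
          (∀ (M : Type u) [L.Structure M], K.mem M → #M = κ →
            ¬ HasCompleteSubdivision (gaifman L M) κ) →
          ∀ κ' : Cardinal.{u}, μ ≤ κ' → K.CategoricalIn κ') := by
  refine ⟨fun l => uniform_club l, ?_⟩
  intro l _
  refine ⟨muG (max l (hanf (2 ^ l))), ?_, ?_⟩
  · have h1 : Order.succ (max l (hanf (2 ^ l))) ≤ thetaG (max l (hanf (2 ^ l))) :=
      (le_max_right _ _).trans (le_max_right _ _)
    exact (le_max_left l _).trans ((Order.le_succ _).trans (h1.trans
      ((cantor _).le.trans (Order.le_succ _))))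
  · intro L _ K hK κ hκ hcat hno κ' hκ'
    exact categorical_transfer' (AEC.isLS_of_LS_le hK) hno hκ hcat hκ'

end Vale.Agent.Results.P307.Transfer
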